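import Crest.Agent.N334.AC.M6.Defs
import Crest.Agent.N334.AC.L.Basic

/-!
# Row 334, S0520 (helper73): uses of the form bounds, initial state, retuning, near profile
-/

set_option autoImplicit false

open Matrix Finset

namespace Crest.Agent.N334.AC.M6

variable {d M : ℕ} [NeZero M] {E0 : (Tor d M → ℝ) → ℝ} {A : Matrix (Tor d M) (Tor d M) ℂ}
  {w w' : Tor d M → ℂ} {ε ε' μ a F δ : ℝ}

theorem LB.init (A : Matrix (Tor d M) (Tor d M) ℂ) (w : Tor d M → ℂ) : LB (En (Km A w)) A w 0 :=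
  fun f hf => ⟨f, hf, fun _ _ => rfl, by simp⟩
theorem UB.init (A : Matrix (Tor d M) (Tor d M) ℂ) (w : Tor d M → ℂ) : UB (En (Km A w)) A w 0 :=
  fun _ _ => by simp
theorem LB.mono (h : LB E0 A w ε) (hE : ∀ ψ, 0 ≤ E0 ψ) (hε : ε ≤ ε') : LB E0 A w ε' := by
  intro f hf
  obtain ⟨ψ, h1, h2, h3⟩ := h f hf
  exact ⟨ψ, h1, h2, le_trans (mul_le_mul_of_nonneg_right (by linarith) (hE ψ)) h3⟩
theorem UB.mono (h : UB E0 A w ε) (hE : ∀ ψ, 0 ≤ E0 ψ) (hε : ε ≤ ε') : UB E0 A w ε' :=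
  fun ψ hψ => (h ψ hψ).trans (mul_le_mul_of_nonneg_right (by linarith) (hE ψ))
/-- retuning (use `Jmp.gam_le`, `Jmp.le_En` with `η = 10 δ`) -/
theorem LB.jmp (h : LB E0 A w ε) (hE : ∀ ψ, 0 ≤ E0 ψ) (hε : 0 ≤ ε) {η : ℝ} (h0 : 0 ≤ η) (h1 : η ≤ 1)
    (hp : ∀ a, gam w' a ≠ 0 → gam w a ≠ 0)
    (hj : ∀ f, (1 - η) * En (Km A w) f ≤ En (Km A w') f) : LB E0 A w' (ε + η) := by
  intro f hf
  obtain ⟨ψ, h2, h3, h4⟩ := h f hf
  refine ⟨ψ, h2, fun a ha => h3 a (hp a ha), le_trans ?_ (hj f)⟩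
  have h5 := mul_le_mul_of_nonneg_left h4 (sub_nonneg.2 h1)
  have h6 := mul_nonneg (mul_nonneg hε h0) (hE ψ)
  nlinarith
/-- retuning (use `Jmp.En_le` with `η = 10 δ`) -/
theorem UB.jmp (h : UB E0 A w ε) (hE : ∀ ψ, 0 ≤ E0 ψ) (hε : ε ≤ 1) {η : ℝ} (h0 : 0 ≤ η)
    (hj : ∀ f, En (Km A w') f ≤ (1 + η) * En (Km A w) f) : UB E0 A w' (ε + 2 * η) := by
  intro ψ hψ
  have h5 := mul_le_mul_of_nonneg_left (h ψ hψ) (by linarith : 0 ≤ 1 + η)
  have h6 := mul_nonneg (mul_nonneg (sub_nonneg.2 hε) h0) (hE ψ)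
  have h7 := hj ψ
  nlinarith

theorem Cap.mono {S S' : Finset (Tor d M)} {a' F' : ℝ} (h : Cap E0 μ S a F) (hE : ∀ ψ, 0 ≤ E0 ψ)
    (hS : S' ⊆ S) (ha : a ≤ a') (hF : F ≤ F') : Cap E0 μ S' a' F' := by
  intro l ψ hl hψ
  refine (h l ψ (fun x hx => hl x fun hx' => hx (hS hx')) hψ).trans ?_
  have h1 : 0 ≤ ∑ x, l x ^ 2 := by positivity
  have h2 := hE ψ
  gcongr

/-- KEY: the lower form bound controls the conductance kernel on a capacity set -/
theorem LB.key {S : Finset (Tor d M)} (h : LB E0 A w ε) (hA : Adm A w) (hε : ε < 1) (hμ : 0 < μ)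
    (hC : Cap E0 μ S a F) (ha : 0 ≤ a) (hF : 0 ≤ F) {l : Tor d M → ℝ}
    (hl : ∀ x, l x ≠ 0 → x ∈ S ∧ x ∉ absb d M ∧ gam w x ≠ 0 ∧ mu (Km A w) x ≤ (1 + δ) * μ) :
    ∑ x, ∑ z ∈ univ.erase x, ‖Km A w x z‖ ^ 2 * (l x * l z) ≤
      μ * ((a / (1 - ε) - 1 + δ) * ∑ x, l x ^ 2 + F / (1 - ε) * (∑ x, |l x|) ^ 2) := by
  have hv : Van l := fun x hx => by
    by_contra h0
    exact (hl x h0).2.1 hx
  obtain ⟨ψ, h1, h2, h3⟩ := h l hv
  have h4 := hC l ψ (fun x hx => by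
    by_contra h0
    exact hx (hl x h0).1) h1
  have e1 : ∑ x, l x * ψ x = ∑ x, l x ^ 2 := sum_congr rfl fun x _ => by
    by_cases h0 : l x = 0
    · simp [h0]
    · rw [h2 x (hl x h0).2.2.1, sq]
  have h5 : ∑ x, mu (Km A w) x * l x ^ 2 ≤ (1 + δ) * μ * ∑ x, l x ^ 2 := by
    rw [mul_sum]
    refine sum_le_sum fun x _ => ?_
    by_cases h0 : l x = 0
    · simp [h0]
    · exact mul_le_mul_of_nonneg_right (hl x h0).2.2.2 (sq_nonneg _)
  have h6 := hA.En_eq l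
  have h7 := En_nn (Km A w) l
  rw [e1] at h4
  have hn : 0 ≤ ∑ x, l x ^ 2 := by positivity
  generalize ∑ x, l x ^ 2 = n at *
  have hm : 0 ≤ (∑ x, |l x|) ^ 2 := sq_nonneg _
  generalize (∑ x, |l x|) ^ 2 = m at *
  have hε' : 0 < 1 - ε := sub_pos.2 hε
  have hL : 0 ≤ a * n + F * m := by positivity
  obtain ⟨L, hLd⟩ : ∃ L, L = μ * (a * n + F * m) / (1 - ε) := ⟨_, rfl⟩
  have hL0 : 0 ≤ L := by rw [hLd]; positivity
  have h8 : (μ * n) ^ 2 ≤ L * En (Km A w) l := by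
    rw [hLd, div_mul_eq_mul_div, le_div_iff₀ hε']
    have h9 := mul_le_mul_of_nonneg_left h4 (mul_pos hμ hε').le
    have h10 := mul_le_mul_of_nonneg_left h3 (mul_nonneg hμ.le hL)
    nlinarith
  have h9 : 2 * (μ * n) - En (Km A w) l ≤ L := by
    rcases hL0.eq_or_lt with h0 | h0
    · rw [← h0, zero_mul] at h8
      have : μ * n = 0 := pow_eq_zero_iff two_ne_zero |>.1 (le_antisymm h8 (sq_nonneg _))
      linarith
    · refine le_of_mul_le_mul_left ?_ h0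
      nlinarith [sq_nonneg (μ * n - L)]
  have e2 : μ * ((a / (1 - ε) - 1 + δ) * n + F / (1 - ε) * m) = L + (δ - 1) * (μ * n) := by
    rw [hLd]
    field_simp
    ring
  rw [e2]
  linarith


/-- the last open core port conducts to the absorber -/
theorem LB.final {S : Finset (Tor d M)} (h : LB E0 A w ε) (hA : Adm A w) (hε : ε ≤ 1)
    (hC : Cap E0 μ S a F) (haF : 0 < a + F) {x : Tor d M} (hS : x ∈ S) (hx : x ∉ absb d M)
    (hγ : gam w x ≠ 0) (hp : ∀ b, b ≠ x → gam w b ≠ 0 → b ∈ absb d M) :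
    μ * (1 - ε) / (a + F) ≤ ∑ b ∈ absb d M, ‖Km A w x b‖ ^ 2 := by
  have hv : Van (Pi.single x (1 : ℝ) : Tor d M → ℝ) := fun y hy =>
    Pi.single_eq_of_ne (fun e => hx (by rwa [← e])) _
  obtain ⟨ψ, h1, h2, h3⟩ := h _ hv
  have h4 := hC (Pi.single x 1) ψ (fun y hy => Pi.single_eq_of_ne (fun e => hy (by rwa [e])) _) h1
  have h5 : ψ x = 1 := by rw [h2 x hγ, Pi.single_eq_same]
  have e1 : En (Km A w) (Pi.single x 1) = mu (Km A w) x := by
    rw [hA.En_eq, sum_eq_single x (fun b _ hb => by simp [hb]) (by simp), sum_eq_zero]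
    · simp
    · intro b _
      refine sum_eq_zero fun c hc => ?_
      by_cases hb : b = x
      · subst hb
        simp [ne_of_mem_erase hc]
      · simp [hb]
  have h6 : mu (Km A w) x ≤ ∑ b ∈ absb d M, ‖Km A w x b‖ ^ 2 := by
    rw [mu, ← sum_filter_of_ne (p := fun b => b ∈ absb d M)]
    · exact sum_le_sum_of_subset_of_nonneg (fun b hb => (mem_filter.1 hb).2)
        fun _ _ _ => sq_nonneg _
    · intro b hb h0
      refine hp b (ne_of_mem_erase hb) fun hg => h0 ?_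
      simp [Km, hg]
  have e2 : ∑ y, (Pi.single x (1 : ℝ) : Tor d M → ℝ) y * ψ y = 1 := by
    rw [sum_eq_single x (fun b _ hb => by simp [hb]) (by simp)]
    simp [h5]
  have e3 : ∑ y, (Pi.single x (1 : ℝ) : Tor d M → ℝ) y ^ 2 = 1 := by
    rw [sum_eq_single x (fun b _ hb => by simp [hb]) (by simp)]
    simp
  have e4 : ∑ y, |(Pi.single x (1 : ℝ) : Tor d M → ℝ) y| = 1 := by
    rw [sum_eq_single x (fun b _ hb => by simp [hb]) (by simp)]
    simp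
  rw [e2, e3, e4] at h4
  rw [e1] at h3
  rw [div_le_iff₀ haF]
  have h7 := mul_le_mul_of_nonneg_left h4 (sub_nonneg.2 hε)
  have h8 := mul_le_mul_of_nonneg_left (h3.trans h6) haF.le
  nlinarith

section Ini

variable {C σ E : ℝ} {w0 : ℂ}

/-- the free energy -/
noncomputable abbrev E00 (d M : ℕ) [NeZero M] (E : ℝ) (w0 : ℂ) : (Tor d M → ℝ) → ℝ :=
  En (Km (Aop d M E) fun _ => w0)

/-- `μ₀` -/
noncomputable abbrev mu0 (d M : ℕ) [NeZero M] (E : ℝ) (w0 : ℂ) : ℝ :=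
  -w0.im * (Gm (Aop d M E) (fun _ => w0) (0 : Tor d M) 0).im

theorem cap_one (h : Init d M C σ E w0) {e : ℝ} (he : 0 < e) (he1 : e ≤ 1) :
    Cap (E00 d M E w0) (mu0 d M E w0) univ (1 + e) (C * σ ^ 3 / e) :=
  fun l ψ _ hψ => h.cap1 e he he1 l ψ hψ


theorem mu0_ge (h : Init d M C σ E w0) (hC : 0 < C) : σ ^ 2 / C ^ 2 ≤ mu0 d M E w0 := by
  have h0 : 0 ≤ σ ^ 2 / C := by positivity
  calc σ ^ 2 / C ^ 2 = σ ^ 2 / C * (1 / C) := by field_simp
    _ ≤ _ := mul_le_mul h.gam_lo h.im_lo (by positivity) (h0.trans h.gam_lo)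

theorem exists_Nrm (h : Init d M C σ E w0) (hC : 0 < C) (hσ : 0 < σ) (L : ℕ) (B : Type) [Fintype B]
    (hB : vol d M (3 * L) ≤ Fintype.card B) :
    ∃ n : Tor d M → Matrix (Tor d M) B ℝ, ∀ p, Nrm (E00 d M E w0) (Qp L p) (n p) := by
  have hμ : 0 < mu0 d M E w0 := lt_of_lt_of_le (by positivity) (mu0_ge h hC)
  have key : ∀ p, ∃ n : Matrix (Tor d M) B ℝ, Nrm (E00 d M E w0) (Qp L p) n := by
    intro p
    obtain ⟨n, h1, h2⟩ := exists_nrm (Km (Aop d M E) fun _ => w0) (Qp L p) B (by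
      have h1 : ((Qp L p).card : ℝ) ≤ (tball p (3 * L)).card := by
        exact_mod_cast card_le_card sdiff_subset
      rw [card_tball] at h1
      exact_mod_cast h1.trans hB) fun φ hφ h0 => by
        funext x
        have h1 := h.cap1 1 one_pos le_rfl (Pi.single x 1) φ
          fun y hy => hφ y fun hq => (mem_sdiff.1 hq).2 hy
        rw [h0, mul_zero, sum_eq_single x (fun b _ hb => by simp [hb]) (by simp),
          Pi.single_eq_same, one_mul] at h1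
        have h2 : φ x ^ 2 ≤ 0 := le_of_mul_le_mul_left (h1.trans_eq (mul_zero _).symm) hμ
        exact pow_eq_zero_iff two_ne_zero |>.1 (le_antisymm h2 (sq_nonneg _))
    exact ⟨n, h1, h2⟩
  choose n hn using key
  exact ⟨n, hn⟩

/-- near profile of the first epochs -/
noncomputable def near (d M : ℕ) [NeZero M] (E : ℝ) (w0 : ℂ) (g t : ℝ) (y b : Tor d M) : ℝ :=
  if t < ‖Gm (Aop d M E) (fun _ => w0) b y‖ ^ 2 then 2 * g * ‖Gm (Aop d M E) (fun _ => w0) b y‖ ^ 2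
  else 0



theorem Ky.four (h : Init d M C σ E w0) (y : Tor d M) :
    ∑ b, ‖Gm (Aop d M E) (fun _ => w0) b y‖ ^ 4 ≤ C / σ := by
  refine le_trans (le_of_eq ?_) h.four
  exact Fintype.sum_equiv (Equiv.subRight y) _ _ fun b => by
    rw [h.transl b y, Equiv.subRight_apply]




end Ini

end Crest.Agent.N334.AC.M6
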